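import Vale.Agent.P004Z.Defs
import Vale.Agent.P004N.DefsL
import Vale.Agent.P004N.H503.Iface

/-! # P004Z (Gross-Zagier): the rows -/

open Complex UpperHalfPlane MeasureTheory Filter Topology CongruenceSubgroup
open scoped Real MatrixGroups ComplexConjugate NumberTheorySymbols

noncomputable section

namespace Vale.Agent.P004Z

open P004N (S2 QE TE RN Pr Lat ALw EF)

/-- the Heegner point is torsion -/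
def Tors (N δ δ' : ℕ) (β : ℤ) (a : ℕ → ℤ) (L : PeriodPair) : Prop :=
  ∀ s, Reps (Gamma0 N) (Bd N δ δ' β) s →
    ∃ k : ℕ, 0 < k ∧ k * evd s (Bd N δ δ' β) (Pr fun n => (a n : ℂ)) ∈ L.lattice

/-- **the target** -/
def GZ : Prop := ∀ (N : ℕ) (G : ℍ → ℂ) (a : ℕ → ℤ) (L : PeriodPair) (δ δ' : ℕ) (β : ℤ),
  RN N G a → Lat N a L → Dat N δ δ' β → Van2 a δ → Tors N δ δ' β a L

/-- a double zero -/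
def LF : Prop := ∀ (N : ℕ) (G : ℍ → ℂ) (a : ℕ → ℤ) (δ : ℕ) (Λ : ℂ → ℂ), EF N G a → Ok N δ →
  AnalyticOnNhd ℂ Λ {s | 1 ≤ s.re} →
  (∀ s : ℂ, 3 / 2 < s.re → LSeriesHasSum (fun n => ((a n * J(n | δ) : ℤ) : ℂ)) s (Λ s)) →
  2 ≤ analyticOrderAt Λ 1 → Van2 a δ

/-! ## weight two -/

/-- newforms exist -/
def NEW : Prop := ∀ (N : ℕ) (f : ℍ → ℂ) (a : ℕ → ℤ), EF N f a →
  ∃ (M : ℕ) (g : ℍ → ℂ) (b : ℕ → ℤ), M ∣ N ∧ RN M g b ∧ ∀ n : ℕ, n.Coprime N → b n = a n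

/-- strong multiplicity one -/
def SMO : Prop := ∀ (N S : ℕ) (G : ℍ → ℂ) (a : ℕ → ℤ), RN N G a → S ≠ 0 →
  ∀ (g : ℍ → ℂ) (c : ℕ → ℂ), S2 N g → QE g c → TE S a c → ∃ κ : ℂ, ∀ z, g z = κ * G z

/-- the Petersson product in weight two -/
def pet2 (N : ℕ) (g h : ℍ → ℂ) : ℂ := ∑ᶠ q : SL(2, ℤ) ⧸ Gamma0 N,
  ∫ z in FD, petersson 2 h g (q.out⁻¹ • ofComplex z) / z.im ^ 2

/-- `T_l` on coefficients -/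
def Tc (l : ℕ) (c : ℕ → ℂ) (n : ℕ) : ℂ := c (l * n) + if l ∣ n then l * c (n / l) else 0

def PET2 : Prop := ∀ N : ℕ, 0 < N →
  (∀ g h, S2 N g → S2 N h → ∀ γ : SL(2, ℤ),
    IntegrableOn (fun z => petersson 2 h g (γ • ofComplex z) / z.im ^ 2) FD) ∧
  (∀ g, S2 N g → pet2 N g g = 0 → g = 0) ∧
  ∀ (l : ℕ) g h g' h' c e, l.Prime → ¬ l ∣ N → S2 N g → S2 N h → QE g c → QE h e →
    QE g' (Tc l c) → QE h' (Tc l e) → pet2 N g' h = pet2 N g h'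

/-- `T_l` as an operator -/
def TcL (l : ℕ) : Module.End ℂ (ℕ → ℂ) where
  toFun := Tc l
  map_add' c e := by
    funext n
    simp only [Tc, Pi.add_apply]
    split_ifs <;> ring
  map_smul' k c := by
    funext n
    simp only [Tc, Pi.smul_apply, smul_eq_mul, RingHom.id_apply]
    split_ifs <;> ring

/-- a projector with integer coefficients -/
def PROJ : Prop := ∀ (N S : ℕ) (G : ℍ → ℂ) (a : ℕ → ℤ), RN N G a → S ≠ 0 → N ∣ S →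
  ∃ P : FreeAlgebra ℤ (PA S), FreeAlgebra.lift ℤ (fun l : PA S => a l.1) P ≠ 0 ∧
    ∀ g c, S2 N g → QE g c →
      ∃ κ : ℂ, FreeAlgebra.lift ℤ (fun l : PA S => TcL l.1) P c = fun n => κ * a n

def TRIV : Prop := ∀ (N : ℕ) (G : ℍ → ℂ) (a : ℕ → ℤ), RN N G a → ∀ p : ℕ, p.Prime → ¬ p ∣ N →
  a p ≠ p + 1 ∧ a p ≠ -(p + 1)

/-! ## G1: Hecke operators in weight `3/2` -/

def HECKE : Prop := ∀ (N : ℕ) [NeZero N] (δ l : ℕ), Ok N δ → l.Prime → ¬ l ∣ 2 * N * δ →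
  ∀ x : Cf N, IsS δ x → IsS δ (TT δ l x)

def SELF : Prop := ∀ (N : ℕ) [NeZero N] (δ l : ℕ), Ok N δ → l.Prime → ¬ l ∣ 2 * N * δ →
  ∀ x y : Cf N, IsS δ x → IsS δ y →
    pet (fn (TT δ l x)) (fn y) = pet (fn x) (fn (TT δ l y))

def LEMV : Prop := ∀ (N : ℕ) [NeZero N] (δ p : ℕ), Ok N δ → p.Prime → ¬ p ∣ 2 * N * δ →
  ∀ x : Cf N, IsS δ x → (∀ (n : ℕ) r, J(-((δ : ℤ) * n) | p) = 1 → x n r = 0) →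
    ∃ η : ℂ, (η = 1 ∨ η = -1) ∧ TT δ p x = (η * (p + 1)) • x

/-! ## G2: duality -/

/-- Stokes on the fundamental domain -/
def STK : Prop := ∀ h : ℂ → ℂ, ContDiffOn ℝ 1 h {τ | 0 < τ.im} →
  (∀ τ : ℂ, 0 < τ.im → h (τ + 1) = h τ ∧ h (-1 / τ) = τ ^ 2 * h τ) → ∀ T : ℝ, 1 ≤ T →
  ∫ τ in FT T, Lo h τ = ∫ u in (-(1 / 2) : ℝ)..(1 / 2), h (u + Complex.I * T)

/-- the space of cusp forms -/
def FIN : Prop := ∀ (N : ℕ) [NeZero N] (δ : ℕ), Ok N δ →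
  ∃ V : Submodule ℂ (Cf N), (∀ x, x ∈ V ↔ IsS δ x) ∧ FiniteDimensional ℂ V

def PETS : Prop := ∀ (N : ℕ) [NeZero N] (δ : ℕ), Ok N δ → ∀ x : Cf N, IsS δ x →
  (∀ n r, x n (-r) = eps δ * x n r) ∧
  (∃ C : ℝ, ∀ r (τ : ℂ), 0 < τ.im → ‖fn x r τ‖ * τ.im ^ (3 / 4 : ℝ) ≤ C) ∧
  (∀ y : Cf N, IsS δ y → IntegrableOn (fun τ : ℂ =>
    (∑ r, fn x r τ * conj (fn y r τ)) * (τ.im ^ (-(1 / 2) : ℝ) : ℝ)) FD) ∧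
  (pet (fn x) (fn x) = 0 → x = 0)

def SERRE : Prop := ∀ (N : ℕ) [NeZero N] (δ : ℕ), Ok N δ → ∀ x : Cf N, (∀ r, x 0 r = 0) →
  (∀ n r, x n r ≠ 0 → In N δ n r) → (∀ n r, x n (-r) = eps δ * x n r) →
  (∀ c, WH δ c → pr x c = 0) → IsS δ x

def HARM : Prop := ∀ (N : ℕ) [NeZero N] (δ : ℕ), Ok N δ → ∀ x : Cf N, IsS δ x →
  ∃ a c, Harm δ a x c

def PAIR : Prop := ∀ (N : ℕ) [NeZero N] (δ : ℕ), Ok N δ → ∀ a (x : Cf N) c, Harm δ a x c →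
  Adm δ c ∧ ∀ y, IsS δ y → pr y c = pet (fn y) (fn x)

/-- every admissible principal part occurs (from `FIN PETS SERRE HARM PAIR`) -/
def EXH : Prop := ∀ (N : ℕ) [NeZero N] (δ : ℕ), Ok N δ → ∀ c : PP N, Adm δ c →
  ∃ a x, Harm δ a x c

/-! ## G3: kernels -/

def PHI : Prop := ∀ (N : ℕ) [NeZero N] (δ : ℕ), Ok N δ →
  (∀ r, Per (N * δ) fun l => ph N δ r l) ∧
  (∀ r m, ft (N * δ) (fun l => ph N δ r l) m = ∑ s, sm N δ r s * ph N δ s m) ∧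
  (∀ r l, ph N δ r l ≠ 0 → ee (-(disc l : ℂ) / (4 * (N * δ : ℕ))) = tm N δ r) ∧
  (∀ (l : Fm) (γ : SL(2, ℤ)), (δ : ℤ) ∣ disc l → gc δ (fa l γ) = gc δ l) ∧
  (∀ r l, ∀ γ ∈ Gamma0 N, ph N δ r (fa l γ) = ph N δ r l) ∧
  (∀ r l, ph N δ (-r) (-l) = eps δ * ph N δ r l) ∧
  (∀ r (γ : SL(2, ℤ)) (b : ℤ), ∑ c ∈ Finset.range (N * δ), ph N δ r (fa (0, b, c) γ) = 0) ∧
  2 * N * kap N δ ^ 2 = eps δ ∧ 2 * N * normSq (kap N δ) = 1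

def THS : Prop := ∀ (ν : ℕ) (φ : Fm → ℂ), 0 < ν → Per ν φ → ∀ τ z : ℂ, 0 < τ.im → 0 < z.im →
  th0 ν φ (-1 / τ) z = (hw τ)⁻¹ * th0 ν (ft ν φ) τ z ∧
  th1 ν φ (-1 / τ) z = -(τ * hw τ)⁻¹ * th1 ν (ft ν φ) τ z

/-- the action on the forms -/
def FTA : Prop := ∀ γ : SL(2, ℤ),
  (∀ l γ', fa (fa l γ) γ' = fa l (γ * γ')) ∧ (∀ l, fa l 1 = l) ∧ (∀ l, disc (fa l γ) = disc l) ∧
  (∀ l m, bil (fa l γ) (fa m γ) = bil l m) ∧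
  (∀ l (z : ℍ), pz (fa l γ) z = pz l (γ • z : ℍ) ∧
    evq (fa l γ) z = (γ 1 0 * z + γ 1 1) ^ 2 * evq l (γ • z : ℍ)) ∧
  ∀ (ν : ℕ) (φ : Fm → ℂ), 0 < ν → Per ν φ → Per ν (fun l => φ (fa l γ)) ∧
    (ft ν fun l => φ (fa l γ)) = (fun l => ft ν φ (fa l γ)) ∧ ∀ (τ : ℂ) (z : ℍ),
      th0 ν (fun l => φ (fa l γ)) τ (γ • z : ℍ) = th0 ν φ τ z ∧
      th1 ν (fun l => φ (fa l γ)) τ (γ • z : ℍ) = (γ 1 0 * z + γ 1 1) ^ 2 * th1 ν φ τ z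

/-- the sign of Gauss sums -/
def GAU : Prop := ∀ (N : ℕ) [NeZero N] (δ δ' : ℕ) (β : ℤ), Dat N δ δ' β →
  Dual δ (δ * δ') (β : ZMod (2 * N)) ∧ Dual (δ * δ') δ (β : ZMod (2 * N))⁻¹ ∧ δ.Coprime δ' ∧
    eps δ' = -1 ∧ J(N | δ') = 1 ∧ (∀ l : ℕ, Odd l → J(-(δ' : ℤ) | l) = J(l | δ')) ∧
    ∀ S : ℕ, S ≠ 0 → ∃ p : ℕ, p.Prime ∧ ¬ p ∣ S ∧ J(-(δ' : ℤ) | p) = -1

/-! ## G4: lifts -/

def LIFT : Prop := ∀ (N : ℕ) [NeZero N] (δ : ℕ), Ok N δ → ∀ a (x : Cf N) c, Harm δ a x c →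
  ∃ Φ, Green (Gamma0 N) (Zc δ c) Φ ∧ ∀ z : ℍ,
    (∀ i ∈ c.support, ∀ l, disc l = -((δ : ℤ) * i.1) → evq l z ≠ 0) →
    Tendsto (reg δ a x z) atTop (𝓝 (Φ z))

/-- Borcherds products -/
def BOR : Prop := ∀ (N : ℕ) [NeZero N] (δ : ℕ), Ok N δ → ∀ c : PP N, WH δ c →
  Prin (Gamma0 N) (Zc δ c)

def SHI : Prop := ∀ (N : ℕ) [NeZero N] (δ δ₁ : ℕ) (ρ : ZMod (2 * N)), Dual δ δ₁ ρ →
  ∃ C : ℂ, C ≠ 0 ∧ ∀ x : Cf N, IsS δ x →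
    S2 N (shi δ₁ ρ x) ∧ QE (shi δ₁ ρ x) fun j => C * shc δ₁ ρ x j

/-- the lift of an eigenform -/
def SHE : Prop := ∀ (N : ℕ) [NeZero N] (δ δ₁ S : ℕ) (ρ : ZMod (2 * N)) (a : ℕ → ℤ) (x : Cf N),
  Dual δ δ₁ ρ →
  (∀ l : ℕ, l.Prime → ¬ l ∣ S → J(l | δ) * J(-((δ : ℤ) * δ₁) | l) = J(l | δ₁)) →
  2 * N * δ * δ₁ ∣ S → Eig δ S a x → TE S a (shc δ₁ ρ x)

/-- Green functions are unique up to constants -/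
def GU : Prop := ∀ (N : ℕ) (A Φ Φ' : ℍ → ℂ), 0 < N → Green (Gamma0 N) A Φ →
  Green (Gamma0 N) A Φ' → ∃ C, ∀ z, A z = 0 → Φ' z = Φ z + C

/-- the unitary function of a divisor -/
def UNI : Prop := ∀ (Γ : Subgroup SL(2, ℤ)) (n : ℍ → ℤ) (Φ : ℍ → ℂ),
  Green Γ (fun z => n z) Φ → ∃ (Ψ : ℍ → ℂ) (χ : SL(2, ℤ) → ℂ), Mero n Ψ ∧ Cus Ψ ∧
    (∀ z, n z = 0 → Real.log (normSq (Ψ z)) = -(Φ z).re) ∧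
    ∀ γ ∈ Γ, ‖χ γ‖ = 1 ∧ ∀ z, Ψ (γ • z) = χ γ * Ψ z

/-! ## G5: the kernel -/

def KER : Prop := ∀ (N : ℕ) [NeZero N] (δ δ' : ℕ) (β : ℤ) (s : Finset ℍ), Dat N δ δ' β →
  Reps (Gamma0 N) (Bd N δ δ' β) s →
  ∃ (κ : ℕ → ℕ → ZMod (2 * N) → ℚ) (ℓ : Cf N → ℂ), Lgs δ δ' κ ∧
    (∀ a x c (Φ : ℍ → ℂ), Harm δ a x c → Off δ δ' c →
      (∀ z ∈ s, Tendsto (reg δ a x z) atTop (𝓝 (Φ z))) →
      evd s (Bd N δ δ' β) Φ = pr (lg κ) c + ℓ x) ∧ ℓ 0 = 0 ∧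
    ∀ x, IsS δ x → ∀ G a (k : ℂ), EF N G a → Van2 a δ →
      (∀ z, shi (δ * δ') (β : ZMod (2 * N)) x z = k * G z) → ℓ x = 0

/-- the even case -/
def WALD : Prop := ∀ (N : ℕ) [NeZero N] (δ δ' S : ℕ) (β : ℤ) (G : ℍ → ℂ) (a : ℕ → ℤ) (x : Cf N),
  Dat N δ δ' β → RN N G a → Van1 a δ → S ≠ 0 → IsS (δ * δ') x → Eig (δ * δ') S a x →
  x δ ((β * δ : ℤ) : ZMod (2 * N)) = 0

/-! ## G8: divisors -/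

def HDIV : Prop := ∀ (N : ℕ) [NeZero N] (δ l : ℕ), Ok N δ → l.Prime → ¬ l ∣ 2 * N * δ →
  ∀ c : PP N, Zc δ (Tt δ l c) = Tdiv l (Zc δ c)

/-- classes of forms at level `M` -/
def CLS : Prop := ∀ (M : ℕ) (l : Fm) (r : ℤ), 0 < M → (4 * M : ℤ) ∣ r ^ 2 - disc l →
  IsCoprime (disc l) M →
  (∃ γ, (M : ℤ) ∣ (fa l γ).1 ∧ (2 * M : ℤ) ∣ (fa l γ).2.1 - r) ∧
  ∀ γ, (M : ℤ) ∣ l.1 → (2 * M : ℤ) ∣ l.2.1 - r → (M : ℤ) ∣ (fa l γ).1 →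
    (2 * M : ℤ) ∣ (fa l γ).2.1 - r → γ ∈ Gamma0 M

/-- finiteness, invariance, degree zero -/
def DIVS : Prop := ∀ (N : ℕ) [NeZero N] (δ : ℕ), Ok N δ → ∀ (n : ℕ) (r : ZMod (2 * N)),
  (∀ γ ∈ Gamma0 N, ∀ z, Zp N δ n r (γ • z) = Zp N δ n r z) ∧
  (∀ z, Zd N δ n r z = Zp N δ n r z + eps δ * Zp N δ n (-r) z) ∧
  (∀ z, Zp N δ n r z ≠ 0 → 0 < n ∧ In N δ n r ∧ ∃ l, disc l = -((δ : ℤ) * n) ∧ evq l z = 0) ∧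
  ∀ Γ : Subgroup SL(2, ℤ), Γ.FiniteIndex → Γ ≤ Gamma0 N → ∃ s, Reps Γ (Zp N δ n r) s

/-- the divisor `B` -/
def BDV : Prop := ∀ (N : ℕ) [NeZero N] (δ δ' : ℕ) (β : ℤ), Dat N δ δ' β →
  Bd N δ δ' β = Zp N (δ * δ') δ ((β * δ : ℤ) : ZMod (2 * N)) ∧
  (∀ s, Reps (Gamma0 N) (Bd N δ δ' β) s → ∑ z ∈ s, Bd N δ δ' β z = 0) ∧
  ∀ z, Bd N δ δ' β z ≠ 0 → ∀ (n : ℕ) l, disc l = -((δ : ℤ) * n) → evq l z = 0 →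
    IsSquare (δ * δ' * n)

/-- `B` through the ideal classes of `K` -/
def KL : Prop := ∀ (N : ℕ) [NeZero N] (δ δ' M k : ℕ) (β : ℤ), Dat N δ δ' β → 2 * N * δ ∣ M →
  M ∣ (2 * N * δ) ^ k → ∃ (β' : ℤ) (t : Finset Fm) (w : Fm → ℍ), (2 * N : ℤ) ∣ β' - β ∧
    (∀ Q ∈ t, disc Q = -δ' ∧ 0 < Q.1 ∧ (M : ℤ) ∣ Q.1 ∧ (2 * M : ℤ) ∣ Q.2.1 - β' ∧
      (M : ℤ) ∣ Q.2.2 ∧ evq Q (w Q) = 0) ∧
    (∀ Q, disc Q = -δ' → 0 < Q.1 → ∃! Q', Q' ∈ t ∧ ∃ γ, fa Q γ = Q') ∧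
    ∀ s, Reps (Gamma0 N) (Bd N δ δ' β) s → ∀ (A : Type) [AddCommGroup A] (Φ : ℍ → A),
      (∀ γ ∈ Gamma0 N, ∀ z, Φ (γ • z) = Φ z) → ∑ z ∈ s, Bd N δ δ' β z • Φ z =
        ∑ Q ∈ t, ∑ j ∈ Finset.range δ, J(-β' * j | δ) • Φ (ofComplex ((j + w Q) / δ))

/-! ## G6, G7: heights -/

/-- the generating series of the heights -/
structure Gen {N : ℕ} [NeZero N] (δ : ℕ) (a : ℕ → ℤ) (x : Cf N) : Prop where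
  zero : ∀ r, x 0 r = 0
  sup : ∀ n r, x n r ≠ 0 → In N δ n r
  sym : ∀ n r, x n (-r) = eps δ * x n r
  lin : ∀ c, IsInt c → Prin (Gamma0 N) (Zc δ c) → pr x c = 0
  eig : Eig δ (2 * N * δ) a x

/-- the even case -/
def ARE : Prop := ∀ (N : ℕ) [NeZero N] (G : ℍ → ℂ) (a : ℕ → ℤ) (L : PeriodPair) (δ δ' : ℕ)
  (β : ℤ) (ε : ℝ), RN N G a → Lat N a L → Dat N δ δ' β → ALw N N G ε →
  ε * (eps δ * J(N | δ) : ℤ) = -1 → ∃ x : Cf N, Gen (δ * δ') a x ∧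
    (x δ ((β * δ : ℤ) : ZMod (2 * N)) = 0 → Tors N δ δ' β a L)

/-- the odd case -/
def ARO : Prop := ∀ (N : ℕ) [NeZero N] (G : ℍ → ℂ) (a : ℕ → ℤ) (L : PeriodPair) (δ δ' : ℕ)
  (β : ℤ) (ε : ℝ) (s : Finset ℍ), RN N G a → Lat N a L → Dat N δ δ' β → ALw N N G ε →
  ε * (eps δ * J(N | δ) : ℤ) = 1 → Reps (Gamma0 N) (Bd N δ δ' β) s →
  ∃ x : Cf N, Gen δ a x ∧ (x (δ * δ') ((β * δ : ℤ) : ZMod (2 * N)) = 0 → Tors N δ δ' β a L) ∧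
    ∃ ι : ℕ → ℕ → ZMod (2 * N) → ℚ, Lgs δ δ' ι ∧
      (∀ c Φ, IsInt c → Off δ δ' c → Prin (Gamma0 N) (Zc δ c) → Green (Gamma0 N) (Zc δ c) Φ →
        evd s (Bd N δ δ' β) Φ + pr (lg ι) c = 0) ∧
      ∃ (P : FreeAlgebra ℤ (PA (2 * N * δ))) (m : ℂ), m ≠ 0 ∧
        ∀ c c' Φ Φ', IsInt c → Off δ δ' c →
          c' = FreeAlgebra.lift ℤ (fun l : PA (2 * N * δ) => Tt δ l.1) P c →
          Green (Gamma0 N) (Zc δ c) Φ → Green (Gamma0 N) (Zc δ c') Φ' →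
          evd s (Bd N δ δ' β) Φ' + pr (lg ι) c' = m * pr x c

/-! ## G9 -/

def GLUE : Prop := SMO → TRIV → HECKE → SELF → LEMV → FIN → PETS → SERRE → PAIR → EXH → GAU →
  LIFT → BOR → SHI → SHE → GU → KER → WALD → DIVS → BDV → ARE → ARO → GZ

end Vale.Agent.P004Z
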