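import Vale.Agent.P004N.Defs

/-! # P004Z (Gross-Zagier): definitions -/

open Complex UpperHalfPlane MeasureTheory Filter Topology CongruenceSubgroup
open scoped Real MatrixGroups ComplexConjugate NumberTheorySymbols

noncomputable section

namespace Vale.Agent.P004Z

/-- `e(x)` -/
def ee (x : ℂ) : ℂ := Complex.exp (2 * π * Complex.I * x)

/-! ### binary quadratic forms -/

/-- `[a, b, c]` -/
abbrev Fm : Type := ℤ × ℤ × ℤ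

def disc (l : Fm) : ℤ := l.2.1 ^ 2 - 4 * l.1 * l.2.2

/-- `bil l l = - disc l` -/
def bil (l m : Fm) : ℤ := 2 * l.1 * m.2.2 + 2 * m.1 * l.2.2 - l.2.1 * m.2.1

def evq (l : Fm) (z : ℂ) : ℂ := l.1 * z ^ 2 + l.2.1 * z + l.2.2

/-- `pz ^ 2 + disc = |evq| ^ 2 / y ^ 2` -/
def pz (l : Fm) (z : ℂ) : ℝ := (l.1 * normSq z + l.2.1 * z.re + l.2.2) / z.im

/-- `l ∘ γ`; `evq (fa l γ) z = (c z + d) ^ 2 * evq l (γ z)` -/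
def fa (l : Fm) (γ : SL(2, ℤ)) : Fm :=
  (l.1 * γ 0 0 ^ 2 + l.2.1 * γ 0 0 * γ 1 0 + l.2.2 * γ 1 0 ^ 2,
    2 * l.1 * γ 0 0 * γ 0 1 + l.2.1 * (γ 0 0 * γ 1 1 + γ 0 1 * γ 1 0) + 2 * l.2.2 * γ 1 0 * γ 1 1,
    l.1 * γ 0 1 ^ 2 + l.2.1 * γ 0 1 * γ 1 1 + l.2.2 * γ 1 1 ^ 2)

/-- the genus character (for `δ ∣ disc l`) -/
def gc (δ : ℕ) (l : Fm) : ℤ :=
  ∏ p ∈ δ.primeFactors, if (p : ℤ) ∣ l.1 then J(l.2.2 | p) else J(l.1 | p)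

def ph (N δ : ℕ) (r : ZMod (2 * N)) (l : Fm) : ℤ :=
  if (N : ℤ) ∣ l.1 ∧ (l.2.1 : ZMod (2 * N)) = r ∧ (δ : ℤ) ∣ disc l then gc δ l else 0

structure Ok (N δ : ℕ) : Prop where
  odd : Odd δ
  sq : Squarefree δ
  one : 1 < δ
  cop : N.Coprime δ

def eps (δ : ℕ) : ℤ := J(-1 | δ)

/-- the Gauss sum -/
def gs (δ : ℕ) : ℂ := ∑ x ∈ Finset.range δ, (J(x | δ) : ℂ) * ee (x / δ)

def kap (N δ : ℕ) : ℂ := gs δ * (J(N | δ) : ℂ) / (√(2 * N * δ : ℝ) : ℝ)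

/-! ### theta kernels -/

/-- periodic modulo `ν (ℤ, 2 ℤ, ℤ)` -/
def Per (ν : ℕ) (φ : Fm → ℂ) : Prop :=
  ∀ l m : Fm, φ (l.1 + ν * m.1, l.2.1 + 2 * ν * m.2.1, l.2.2 + ν * m.2.2) = φ l

/-- the finite Fourier transform -/
def ft (ν : ℕ) (φ : Fm → ℂ) (m : Fm) : ℂ :=
  ((√(2 * ν ^ 3 : ℝ) : ℝ) : ℂ)⁻¹ * ∑ a ∈ Finset.range ν, ∑ b ∈ Finset.range (2 * ν),
    ∑ c ∈ Finset.range ν, φ (a, b, c) * ee (bil (a, b, c) m / (2 * ν))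

/-- the Gaussian -/
def gau (ν : ℕ) (l : Fm) (τ z : ℂ) : ℂ :=
  ee (-(disc l : ℂ) * conj τ / (4 * ν)) * (Real.exp (-π * τ.im * pz l z ^ 2 / ν) : ℝ)

/-- the Siegel kernel: weight `-1/2` in `τ`, `0` in `z` -/
def th0 (ν : ℕ) (φ : Fm → ℂ) (τ z : ℂ) : ℂ := τ.im * ∑' l : Fm, φ l * gau ν l τ z

/-- the Shimura kernel: weight `-3/2` in `τ`, `2` in `z` -/
def th1 (ν : ℕ) (φ : Fm → ℂ) (τ z : ℂ) : ℂ :=
  τ.im ^ 2 * ∑' l : Fm, φ l * (evq l (conj z) / z.im ^ 2) * gau ν l τ z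

/-- `(τ / i) ^ (1/2)` -/
def hw (τ : ℂ) : ℂ := (τ / Complex.I) ^ (1 / 2 : ℂ)

/-- `v ^ (-2) L`, `L` the lowering operator -/
def Lo (h : ℂ → ℂ) (τ : ℂ) : ℂ := fderiv ℝ h τ Complex.I - Complex.I * fderiv ℝ h τ 1

def FD : Set ℂ := {τ | |τ.re| ≤ 1 / 2 ∧ 1 ≤ ‖τ‖ ∧ 0 < τ.im}

def FT (T : ℝ) : Set ℂ := FD ∩ {τ | τ.im ≤ T}

/-! ### divisors and Green functions -/

/-- the twisted Heegner divisor of discriminant `- δ n` -/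
def Zd (N δ n : ℕ) (r : ZMod (2 * N)) (z : ℍ) : ℤ :=
  ∑ᶠ l : Fm, if disc l = -((δ : ℤ) * n) ∧ evq l z = 0 then ph N δ r l else 0

/-- the part of the positive definite forms -/
def Zp (N δ n : ℕ) (r : ZMod (2 * N)) (z : ℍ) : ℤ :=
  ∑ᶠ l : Fm, if disc l = -((δ : ℤ) * n) ∧ evq l z = 0 ∧ 0 < l.1 then ph N δ r l else 0

/-- `s` represents the orbits in the support of `A` -/
structure Reps (Γ : Subgroup SL(2, ℤ)) (A : ℍ → ℤ) (s : Finset ℍ) : Prop where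
  sup : ∀ z ∈ s, A z ≠ 0
  ex : ∀ z, A z ≠ 0 → ∃ γ ∈ Γ, γ • z ∈ s
  uq : ∀ z ∈ s, ∀ w ∈ s, ∀ γ ∈ Γ, γ • z = w → z = w

def evd (s : Finset ℍ) (A : ℍ → ℤ) (Φ : ℍ → ℂ) : ℂ := ∑ z ∈ s, A z * Φ z

structure Green (Γ : Subgroup SL(2, ℤ)) (A Φ : ℍ → ℂ) : Prop where
  dv : ∀ γ ∈ Γ, ∀ z, A (γ • z) = A z
  inv : ∀ γ ∈ Γ, ∀ z, A z = 0 → Φ (γ • z) = Φ z
  loc : ∀ w : ℍ, ∃ a b : ℂ → ℂ, AnalyticAt ℂ a w ∧ AnalyticAt ℂ b w ∧ ∀ᶠ z : ℍ in 𝓝 w,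
    (z ≠ w → A z = 0) ∧ (z ≠ w ∨ A w = 0 →
      Φ z = -A w * (Real.log (normSq ((z : ℂ) - w)) : ℝ) + a z + conj (b z))
  bdd : ∀ γ : SL(2, ℤ), ∃ C y : ℝ, ∀ z : ℍ, y < z.im → A (γ • z) = 0 ∧ ‖Φ (γ • z)‖ ≤ C

/-- `Ψ` is meromorphic with divisor `n` (value `0` at zeros and poles) -/
def Mero (n : ℍ → ℤ) (Ψ : ℍ → ℂ) : Prop := ∀ w : ℍ, ∃ u : ℂ → ℂ, AnalyticAt ℂ u w ∧ u w ≠ 0 ∧
  ∀ᶠ z : ℍ in 𝓝 w, Ψ z = ((z : ℂ) - w) ^ n w * u z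

/-- no zero and no pole at the cusps -/
def Cus (Ψ : ℍ → ℂ) : Prop := ∀ γ : SL(2, ℤ), ∃ C y : ℝ, 0 < C ∧ ∀ z : ℍ, y < z.im →
  C⁻¹ ≤ ‖Ψ (γ • z)‖ ∧ ‖Ψ (γ • z)‖ ≤ C

/-- a multiple of `A` is principal -/
def Prin (Γ : Subgroup SL(2, ℤ)) (A : ℍ → ℂ) : Prop := ∃ (k : ℕ) (n : ℍ → ℤ) (Ψ : ℍ → ℂ), 0 < k ∧
  (∀ z, (n z : ℂ) = k * A z) ∧ Mero n Ψ ∧ Cus Ψ ∧ ∀ γ ∈ Γ, ∀ z, Ψ (γ • z) = Ψ z

/-- the Hecke operator on invariant functions (divisors) -/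
def Tdiv (l : ℕ) : Module.End ℂ (ℍ → ℂ) where
  toFun A z := A (ofComplex (l * z)) + ∑ ν ∈ Finset.range l, A (ofComplex ((z + ν) / l))
  map_add' A B := by
    funext z
    simp only [Pi.add_apply, Finset.sum_add_distrib]
    ring
  map_smul' c A := by
    funext z
    simp only [Pi.smul_apply, smul_eq_mul, RingHom.id_apply, mul_add, Finset.mul_sum]

/-- primes not dividing `S` -/
abbrev PA (S : ℕ) : Type := {l : ℕ // l.Prime ∧ ¬ l ∣ S}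

/-- the twist -/
def tw (a : ℕ → ℤ) (δ : ℕ) (z : ℂ) : ℂ := ∑' n : ℕ, (a n * J(n | δ) : ℤ) * ee (n * z)

/-- `L(1) = 0` -/
def Van1 (a : ℕ → ℤ) (δ : ℕ) : Prop := ∫ y in Set.Ioi (0 : ℝ), tw a δ (Complex.I * y) = 0

/-- `L(1) = L'(1) = 0` -/
def Van2 (a : ℕ → ℤ) (δ : ℕ) : Prop :=
  Van1 a δ ∧ ∫ y in Set.Ioi (0 : ℝ), tw a δ (Complex.I * y) * (Real.log y : ℝ) = 0

/-- `K = ℚ(√-δ')`, all primes of `2 N δ` split -/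
structure Dat (N δ δ' : ℕ) (β : ℤ) : Prop where
  ok : Ok N δ
  sq : Squarefree δ'
  m8 : δ' % 8 = 7
  spl : ∀ p : ℕ, p.Prime → p ≠ 2 → p ∣ N * δ → J(-(δ' : ℤ) | p) = 1
  big : 64 * N ^ 4 < δ'
  rt : (16 * N : ℤ) ∣ β ^ 2 + δ'

/-- the Heegner points of conductor `δ`, with the genus character -/
def Bd (N δ δ' : ℕ) (β : ℤ) : ℍ → ℤ := Zp N δ (δ * δ') ((β * δ : ℤ) : ZMod (2 * N))

/-- `p` splits in `K` -/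
def Spl (δ' p : ℕ) : Prop := p = 2 ∨ J(-(δ' : ℤ) | p) = 1

/-! ### vector valued forms -/

variable (N : ℕ) [NeZero N] (δ : ℕ)

abbrev Cf : Type := ℕ → ZMod (2 * N) → ℂ

/-- principal parts -/
abbrev PP : Type := ℕ × ZMod (2 * N) →₀ ℂ

/-- `- δ n ≡ r ^ 2` modulo `4 N` -/
def In (n : ℤ) (r : ZMod (2 * N)) : Prop := (4 * N : ℤ) ∣ (r.val : ℤ) ^ 2 + δ * n

/-- the matrix of `S` -/
def sm (r s : ZMod (2 * N)) : ℂ :=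
  kap N δ * ZMod.stdAddChar (-((δ : ZMod (2 * N))⁻¹ * r * s))

/-- the matrix of `T` -/
def tm (r : ZMod (2 * N)) : ℂ :=
  ZMod.stdAddChar (-((δ : ZMod (4 * N))⁻¹ * (r.val : ZMod (4 * N)) ^ 2))

variable {N}

def fn (x : Cf N) (r : ZMod (2 * N)) (τ : ℂ) : ℂ := ∑' n : ℕ, x n r * ee (n * τ / (4 * N))

/-- cusp forms of weight `3/2` -/
structure IsS (x : Cf N) : Prop where
  zero : ∀ r, x 0 r = 0
  sup : ∀ n r, x n r ≠ 0 → In N δ n r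
  sum : ∀ r (τ : ℂ), 0 < τ.im → Summable fun n : ℕ => ‖x n r * ee (n * τ / (4 * N))‖
  law : ∀ τ : ℂ, 0 < τ.im → ∀ r,
    fn x r (-1 / τ) = τ ^ 2 / hw τ * ∑ s, sm N δ r s * fn x s τ

/-- the Petersson product in weight `3/2` -/
def pet (g h : ZMod (2 * N) → ℂ → ℂ) : ℂ :=
  ∫ τ in FD, (∑ r, g r τ * conj (h r τ)) * (τ.im ^ (-(1 / 2) : ℝ) : ℝ)

def pr (x : Cf N) (c : PP N) : ℂ := c.sum fun i a => a * x i.1 i.2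

/-- admissible principal parts -/
structure Adm (c : PP N) : Prop where
  zero : ∀ r, c (0, r) = 0
  sup : ∀ n r, c (n, r) ≠ 0 → In N δ n r
  sym : ∀ n r, c (n, -r) = eps δ * c (n, r)

def IsInt (c : PP N) : Prop := ∀ i, ∃ k : ℤ, c i = k

/-- the non-holomorphic part: `v ^ 2 Lo (nh x r) = v ^ (3/2) conj (fn x r)` -/
def nh (x : Cf N) (r : ZMod (2 * N)) (τ : ℂ) : ℂ :=
  -∫ s in Set.Ioi τ.im, (s ^ (-(1 / 2) : ℝ) : ℝ) *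
    conj (fn x r (τ.re + Complex.I * (2 * s - τ.im : ℝ)))

def hf (a : ℤ → ZMod (2 * N) → ℂ) (x : Cf N) (r : ZMod (2 * N)) (τ : ℂ) : ℂ :=
  ∑' n : ℤ, a n r * ee (n * τ / (4 * N)) + nh x r τ

/-- harmonic forms of weight `1/2` with principal part `c` and shadow `x` -/
structure Harm (a : ℤ → ZMod (2 * N) → ℂ) (x : Cf N) (c : PP N) : Prop where
  s : IsS δ x
  sup : ∀ n r, a n r ≠ 0 → In N δ (-n) r
  zero : ∀ r, c (0, r) = 0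
  pp : ∀ (n : ℕ) r, 0 < n → c (n, r) = a (-n) r
  sum : ∀ r (τ : ℂ), 0 < τ.im → Summable fun n : ℤ => ‖a n r * ee (n * τ / (4 * N))‖
  law : ∀ τ : ℂ, 0 < τ.im → ∀ r,
    hf a x r (-1 / τ) = hw τ * ∑ s, conj (sm N δ r s) * hf a x s τ

/-- principal parts of weakly holomorphic forms with integer coefficients -/
def WH (c : PP N) : Prop :=
  ∃ a : ℤ → ZMod (2 * N) → ℤ, Harm δ (fun n r => (a n r : ℂ)) 0 c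

/-- the Hecke operator `T(l ^ 2)` -/
def TT (l : ℕ) (x : Cf N) : Cf N := fun n r =>
  x (l ^ 2 * n) (l * r) + (J(l | δ) * J(-((δ : ℤ) * n) | l) : ℤ) * x n r +
    if l ^ 2 ∣ n then l * x (n / l ^ 2) ((l : ZMod (2 * N))⁻¹ * r) else 0

/-- its transpose -/
def Tt (l : ℕ) : Module.End ℂ (PP N) :=
  Finsupp.lsum ℂ fun i => LinearMap.toSpanSingleton ℂ (PP N)
    (Finsupp.single (l ^ 2 * i.1, l * i.2) 1 +
      Finsupp.single i ((J(l | δ) * J(-((δ : ℤ) * i.1) | l) : ℤ) : ℂ) +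
      if l ^ 2 ∣ i.1 then Finsupp.single (i.1 / l ^ 2, (l : ZMod (2 * N))⁻¹ * i.2) (l : ℂ) else 0)

/-- eigenform away from `S` -/
def Eig (S : ℕ) (a : ℕ → ℤ) (x : Cf N) : Prop :=
  ∀ l : ℕ, l.Prime → ¬ l ∣ S → TT δ l x = (a l : ℂ) • x

def Zc (c : PP N) (z : ℍ) : ℂ := c.sum fun i a => a * Zd N δ i.1 i.2 z

/-- the truncated theta integral -/
def reg (a : ℤ → ZMod (2 * N) → ℂ) (x : Cf N) (z : ℍ) (T : ℝ) : ℂ :=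
  ∫ τ in FT T, (∑ r, hf a x r τ * th0 (N * δ) (fun l => ph N δ r l) τ z) / τ.im ^ 2

/-- the Shimura lift -/
def shi (ρ : ZMod (2 * N)) (x : Cf N) (z : ℍ) : ℂ :=
  ∫ τ in FD, (∑ r, fn x r τ * th1 (N * δ) (fun l => ph N δ (ρ * r) l) τ z) / τ.im ^ 2

/-- the coefficients of the Shimura lift -/
def shc (ρ : ZMod (2 * N)) (x : Cf N) (j : ℕ) : ℂ :=
  ∑ i ∈ j.divisorsAntidiagonal, (J(i.2 | δ) : ℂ) * x (δ * i.1 ^ 2) (ρ⁻¹ * δ * i.1)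

/-- the modules of `δ` and `δ₁` are dual -/
structure Dual (δ₁ : ℕ) (ρ : ZMod (2 * N)) : Prop where
  ok : Ok N δ
  ok1 : Ok N δ₁
  un : IsUnit ρ
  sq : (4 * N : ℤ) ∣ (ρ.val : ℤ) ^ 2 * δ + δ₁
  kp : 2 * N * kap N δ * kap N δ₁ = Complex.I

/-- supported off the square classes -/
def Off (δ' : ℕ) (c : PP N) : Prop := ∀ i ∈ c.support, ¬ IsSquare (δ * δ' * i.1)

/-- arrays of logarithms -/
def lg (κ : ℕ → ℕ → ZMod (2 * N) → ℚ) : Cf N := fun n r =>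
  ((∑ᶠ p : ℕ, (κ p n r : ℝ) * Real.log p : ℝ) : ℂ)

/-- finiteness and vanishing of the `log p` parts -/
structure Lgs (δ' : ℕ) (κ : ℕ → ℕ → ZMod (2 * N) → ℚ) : Prop where
  fin : ∀ n r, {p | κ p n r ≠ 0}.Finite
  prime : ∀ p n r, κ p n r ≠ 0 → p.Prime
  spl : ∀ p n r, Spl δ' p → κ p n r = 0
  van : ∀ (p n : ℕ) r, J(-((δ : ℤ) * n) | p) = 1 → κ p n r = 0

end Vale.Agent.P004Z
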