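import Vale.Agent.P004Z.Top
import Vale.Agent.P004Z.Bo.Bor
import Vale.Agent.P004Z.Kf.Ker
import Vale.Agent.P004Z.Ar.All

/-! # P004Z: the target -/

namespace Vale.Agent.P004Z

/-- **GZ** -/
theorem gz : GZ := gz_of Bo.bor ker Ar.are_aro.1 Ar.are_aro.2

end Vale.Agent.P004Z
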