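import Vale.Agent.P004Z.Gl.Glue
import Vale.Agent.P004Z.Lf.All
import Vale.Agent.P004Z.Bo.Gu
import Vale.Agent.P004Z.Hd.Kl

/-! # P004Z: the target from the last four rows -/

namespace Vale.Agent.P004Z

theorem gz_of (hB : Bo.EXP → BOR) (hK : KER) (hE : ARE) (hO : ARO) : GZ :=
  glue smo triv hecke (self g2.2.1) lemv g2.1 g2.2.1 g2.2.2.1 g2.2.2.2.2.1 g2.2.2.2.2.2 gau_row
    g4.1 (hB g4.2.1) g4.2.2.1 g4.2.2.2.1 Bo.gu hK g4.2.2.2.2 divs bdv hE hO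

end Vale.Agent.P004Z
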